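import Vale.Agent.P237.Quant.TailPartsLink
import Vale.Agent.P237.Quant.RowTables
import Vale.Agent.P237.Quant.EnvelopeTableData.N26
import Vale.Agent.P237.Quant.TailData.N35.tailN35P0
import Vale.Agent.P237.Quant.TailData.N35.tailN35P1
import Vale.Agent.P237.Quant.TailData.N35.tailN35P2
import Vale.Agent.P237.Quant.TailData.N35.tailN35P3
import Vale.Agent.P237.Quant.TailData.N35.tailN35N0
import Vale.Agent.P237.Quant.TailData.N35.tailN35N1

/-!
The tail inequalities of the rows of both sides in dimension 35. Generated.
-/

namespace Vale.Agent.P237.Quant

open TailCert TailData

/-- The tail inequalities of `negRow14` in dimension 35. -/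
theorem negRow14_tailAt35 : negRow14.TailAt 34 := by
  intro P hP
  simp only [negRow14, binsOf, List.mem_cons, List.not_mem_nil, or_false] at hP
  rcases hP with rfl | rfl
  · exact tailBin_negParts tailN35N0_check tailN35N0_parts envTable35_check (by decide +kernel)
  · exact tailBin_negParts tailN35N1_check tailN35N1_parts envTable35_check (by decide +kernel)

/-- The tail inequalities of `posRow30` in dimension 35. -/
theorem posRow30_tailAt35 : posRow30.TailAt 34 := by
  intro P hP
  simp only [posRow30, posRowB, posCuts14, posCuts16, binsOf, List.mem_cons, List.not_mem_nil, or_false] at hP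
  rcases hP with rfl | rfl | rfl | rfl
  · exact tailBin_posParts tailN35P0_check tailN35P0_parts envTable35_check (by decide +kernel)
  · exact tailBin_posParts tailN35P1_check tailN35P1_parts envTable35_check (by decide +kernel)
  · exact tailBin_posParts tailN35P2_check tailN35P2_parts envTable35_check (by decide +kernel)
  · exact tailBin_posParts tailN35P3_check tailN35P3_parts envTable35_check (by decide +kernel)

end Vale.Agent.P237.Quant
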